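import Crest.Agent.X262.Dg87.Defs
import Crest.Agent.X262.Vb.Ax0
import Crest.Agent.X262.Str37.Main

/-!
# Row 262, road B (helper72): the degree zero axiom follows from the one point statement
-/

set_option autoImplicit false
set_option linter.unusedSectionVars false

noncomputable section

namespace Crest.Agent.X262.Dg72

open Crest.Agent.X277 Crest.Agent.X277.BD
open Crest.Agent.X262.Hb Crest.Agent.X262.Vb
open Crest.Agent.X262.Bub96 (hv)
open Crest.Agent.X262.Bub96.Tr (dot)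
open Crest.Agent.X262.Dg87 (one OneStmt)

variable {J : Type} [Fintype J] [DecidableEq J] {io : J → Type} [∀ j, Fintype (io j)]
  [∀ j, DecidableEq (io j)] {A : Type} [Fintype A] {T : Tgt io A} {B : Th} {c : ℕ}
variable {K : Type} [Field K] [Algebra ℂ K] {I M : Type}

omit [Algebra ℂ K] in
theorem hv_zero {n : ℕ} (hn : n = 0) {σ : Polynomial K} (h : σ.natDegree ≤ n) (t : Option K) :
    hv n σ t = σ.coeff 0 := by
  subst hn
  rw [Polynomial.eq_C_of_natDegree_le_zero h]
  cases t <;> simp [hv]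

/-- the point of a constant map -/
def cpt (ξ : Dat io 0 I K) : Pnt io K := fun j i => (ξ.f j i).coeff 0

theorem pt_zero (ξ : Dat io 0 I K) (t : Option K) : ξ.pt t = cpt ξ :=
  funext fun j => funext fun i => hv_zero rfl (ξ.cp.1 j i) t

theorem dot_zero (κ : J → ℕ) : dot κ (0 : J → ℕ) = 0 :=
  Finset.sum_eq_zero fun _ _ => mul_zero _

theorem nrm_zero [Nonempty I] (ξ : Dat io 0 I K) (N : ℕ) : ξ.NrmUp N :=
  fun κ _ L _ _ α W σ hσ h t => by
    have h1 := h (Classical.arbitrary I)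
    rw [hv_zero (dot_zero κ) hσ, pt_zero] at h1 ⊢
    exact h1

theorem nz_cpt (ξ : Dat io 0 I K) : NZ (cpt ξ) := pt_zero ξ none ▸ Vb37.nz_pt ξ none

theorem cfg_one (ξ : Dat io 0 Unit K) : ξ.cfg = one (cpt ξ) := by
  refine Cfg.ext (fun q => pt_zero ξ _) fun κ => eq_top_iff.2 fun u _ => ?_
  refine Dat.mem_cfg.2 ⟨Polynomial.C (u ()), by simp, funext fun q => ?_⟩
  rw [hv_zero (dot_zero κ) (by simp), Polynomial.coeff_C_zero]

/-- the ratios of the coefficients are ratios of the coordinates -/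
theorem ratio_mem (ξ : Dat io 0 I K) {k : IntermediateField ℂ K}
    (h : ∀ j i i', cpt ξ j i / cpt ξ j i' ∈ k) (j : J) (i i' : io j) (l l' : ℕ) :
    (ξ.f j i).coeff l / (ξ.f j i').coeff l' ∈ k := by
  have h0 : ∀ i l, (ξ.f j i).coeff (l + 1) = 0 := fun i l =>
    Polynomial.coeff_eq_zero_of_natDegree_lt ((ξ.cp.1 j i).trans_lt l.succ_pos)
  rcases l with _ | l
  · rcases l' with _ | l'
    · exact h j i i'
    · rw [h0, div_zero]
      exact zero_mem _
  · rw [h0, zero_div]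
    exact zero_mem _

variable [Algebra.EssFiniteType ℂ K] {Φ : MFam B io M}

/-- the virtual number of a constant map is the one of its point -/
theorem vir_one [Fintype I] (hG : Good T c 0) (hB : B.Ax) (ξ : Dat io 0 I K) (m : M → I) (q₀ : I) :
    vir B T ξ.cfg m Φ = vir B T (ξ.res fun _ : Unit => q₀).cfg (fun _ => ()) Φ := by
  obtain ⟨N, hN⟩ := hG.res hB
  rw [← (hN ξ (fun _ : Unit => q₀) (nrm_zero _ _)).2.2]
  have h3 : ∀ q, ξ.cfg.y (m q) = ξ.cfg.y q₀ := fun q => (pt_zero _ _).trans (pt_zero _ _).symm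
  have h4 : evF ξ.cfg m Φ = evF ξ.cfg (fun _ => q₀) Φ := by
    funext E _ _ p
    refine congrArg (Φ E) (funext fun q => ?_)
    exact congrArg (fun y => redP p.toPl fun j i => ((ln y j).gen p.V)⁻¹ * y j i) (h3 q)
  rw [vir_eq_sm B T _ m, vir_eq_sm B T _ fun _ => q₀, h4]

/-- a point which is not generic in its field has virtual number zero -/
theorem vir_small (hB : B.Ax) (hΦ : MCls B T Φ) (η : Dat io 0 Unit K) (hx : η.x () = none)
    (h : adim io < dim ℂ K) : vir B T η.cfg (fun _ => ()) Φ = 0 := by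
  classical
  choose i₀ hi₀ using nz_cpt η
  let G : (Σ j, {i // i ≠ i₀ j}) → K := fun v => cpt η v.1 v.2 / cpt η v.1 (i₀ v.1)
  obtain ⟨h1, h2⟩ := Str37.dim_adjoin_le G
  have h3 : Nat.card (Σ j, {i // i ≠ i₀ j}) = adim io := by
    rw [Nat.card_eq_fintype_card, Fintype.card_sigma, adim]
    exact Finset.sum_congr rfl fun j _ => by simp
  have h4 : ∀ j i, cpt η j i / cpt η j (i₀ j) ∈ IntermediateField.adjoin ℂ (Set.range G) :=
    fun j i => by
      by_cases hi : i = i₀ j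
      · rw [hi, div_self (hi₀ j)]
        exact one_mem _
      · exact IntermediateField.subset_adjoin _ _ ⟨⟨j, i, hi⟩, rfl⟩
  obtain ⟨ζ, hz, s, hs, hf⟩ := Vb37.exists_desc η (IntermediateField.adjoin ℂ (Set.range G)) (by
    rintro t (⟨j, i, i', l, l', rfl⟩ | ⟨q, hq⟩)
    · refine ratio_mem η (fun j i i' => ?_) j i i' l l'
      rw [← div_div_div_cancel_right₀ (hi₀ j)]
      exact div_mem (h4 j i) (h4 j i')
    · rw [hx] at hq
      cases hq)
  have h5 : Cfg.Geq _ _ := Vb37.eqv_cfg (Vb37.eqv_of_scl hz.symm hs hf)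
  rw [vir_geq hB hΦ h5 (Dat.cfg_nz _), Vb37.cfg_map,
    Val40.pbStmt B hB T _ _ _ Φ (Dat.cfg_nz _) hΦ, deg_eq_zero _ (by omega), Nat.cast_zero, zero_mul]

/-- **degree zero** from the one point statement -/
theorem deg0Stmt_of (h : OneStmt) : Deg0Stmt := by
  intro B hB J _ _ io _ _ A _ T c hT K₀ _ _ _ y₀ hy M _ Φ hΦ
  by_cases hM : 3 ≤ Fintype.card M
  swap
  · rw [if_neg (by omega)]
    exact GW_of_not (fun ⟨_, _, _, _, hu⟩ => hM (Vb37.univ_card hu)) Φ
  obtain ⟨K, _, _, _, ξ, hu⟩ := Vb37.exists_univ' (io := io) (d := 0) (M := M)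
    (fun j => ⟨(hy.nz j).elim fun i _ => ⟨i⟩, Or.inl rfl⟩) hM
  obtain ⟨a, b, e, hn⟩ := hu.1
  have := Nonempty.intro a
  obtain ⟨N, hN⟩ := (hT.good 0).vir_eq hB
  have h1 := hN Φ hΦ (ξ := ξ) (m := id) (θ := AlgHom.id ℂ K)
    ⟨ξ, hu, by rw [Vb37.dmap_id]; exact Vb37.eqv_refl _⟩ (nrm_zero _ _)
  rw [deg_id, Nat.cast_one, one_mul, vir_one (hT.good 0) hB ξ id a] at h1
  have h2 : dim ℂ K = adim io + Fintype.card M - 3 := by
    have h3 := hu.2.2
    rw [trdeg_eq_dim, Nat.cast_inj] at h3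
    simpa [mdim, adim] using h3
  rw [← h1]
  split_ifs with h3
  · rw [cfg_one]
    refine h B hB T c hT y₀ hy _ (nz_cpt _) (eq_top_iff.2 (hu.2.1 ▸
      IntermediateField.adjoin_le_iff.2 ?_)) (by omega) Φ hΦ
    rintro t (⟨j, i, i', l, l', rfl⟩ | ⟨q, hq⟩)
    · refine ratio_mem ξ (fun j i i' => IntermediateField.subset_adjoin _ _ ?_) j i i' l l'
      exact ⟨j, i, i', rfl⟩
    · classical
      obtain ⟨n1, n2, n3⟩ := Vb37.Nm3.ne hn
      have h4 : ({a, b, e} : Finset M) = Finset.univ := Finset.eq_univ_of_card _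
        ((Finset.card_eq_three.2 ⟨a, b, e, n1, n2, n3, rfl⟩).trans h3.symm)
      have h5 : q ∈ ({a, b, e} : Finset M) := h4 ▸ Finset.mem_univ q
      simp only [Finset.mem_insert, Finset.mem_singleton] at h5
      rcases h5 with rfl | rfl | rfl
      · rw [hn.1] at hq
        cases hq
      · rw [hn.2.1] at hq
        cases hq
        exact zero_mem _
      · rw [hn.2.2] at hq
        cases hq
        exact one_mem _
  · exact vir_small hB hΦ _ hn.1 (by omega)

end Crest.Agent.X262.Dg72
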